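import Vale.Agent.P027.A.Main2

namespace Vale.Agent.Results.P027.A_approx

theorem result : ∃ ε : ℝ, 0 < ε ∧ ∀ (C : ℝ) (R : ℚ → ℚ → Prop),
    (∀ x y : ℚ, Real.log (max x.num.natAbs x.den : ℕ) +
        ε * √(Real.log (max y.num.natAbs y.den : ℕ)) + C ≤
        Real.log (max y.num.natAbs y.den : ℕ) → R x y) →
    (∀ x y : ℚ, R x y → Real.log (max x.num.natAbs x.den : ℕ) ≤
        Real.log (max y.num.natAbs y.den : ℕ) +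
        ε * √(Real.log (max y.num.natAbs y.den : ℕ)) + C) →
    (∃ (m : ℕ) (f : MvPolynomial (Fin 1 ⊕ Fin m) ℤ) (L : List (Fin m × Fin m)),
      ∀ a : Fin 1 → ℚ, (∃ z : ℤ, a 0 = z) ↔
        ∃ y : Fin m → ℚ, MvPolynomial.aeval (Sum.elim a y) f = 0 ∧
          ∀ p ∈ L, R (y p.1) (y p.2)) ∧
    (∀ (n : ℕ) (S : Set (Fin n → ℕ)), (REPred fun s => s ∈ S) →
      ∃ (m : ℕ) (f : MvPolynomial (Fin n ⊕ Fin m) ℤ) (L : List (Fin m × Fin m)),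
        ∀ a : Fin n → ℚ, (∃ s ∈ S, a = fun i => (s i : ℚ)) ↔
          ∃ y : Fin m → ℚ, MvPolynomial.aeval (Sum.elim a y) f = 0 ∧
            ∀ p ∈ L, R (y p.1) (y p.2)) ∧
    (∃ (m : ℕ) (f : MvPolynomial (Fin 1 ⊕ Fin m) ℤ) (L : List (Fin m × Fin m)),
      ¬ ComputablePred fun k : ℕ =>
        ∃ y : Fin m → ℚ, MvPolynomial.aeval (Sum.elim (fun _ => (k : ℚ)) y) f = 0 ∧
          ∀ p ∈ L, R (y p.1) (y p.2)) ∧
    ((∃ (m : ℕ) (g : MvPolynomial (Fin 2 ⊕ Fin m) ℤ), ∀ a : Fin 2 → ℚ,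
        R (a 0) (a 1) ↔ ∃ y : Fin m → ℚ, MvPolynomial.aeval (Sum.elim a y) g = 0) →
      (∃ (m : ℕ) (f : MvPolynomial (Fin 1 ⊕ Fin m) ℤ), ∀ a : Fin 1 → ℚ,
        (∃ z : ℤ, a 0 = z) ↔ ∃ y : Fin m → ℚ, MvPolynomial.aeval (Sum.elim a y) f = 0) ∧
      ∃ (m : ℕ) (f : MvPolynomial (Fin 1 ⊕ Fin m) ℤ), ¬ ComputablePred fun k : ℕ =>
        ∃ y : Fin m → ℚ, MvPolynomial.aeval (Sum.elim (fun _ => (k : ℚ)) y) f = 0) := by
  obtain ⟨ε, h0, H⟩ := Vale.Agent.P027.approx_int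
  refine ⟨ε, h0, fun C R hlo hup => ?_⟩
  have hZ := H C R hlo hup
  refine ⟨(Vale.Agent.P027.HR.fin1 hZ).out, fun n S hS => (Vale.Agent.P027.HR.re hZ S hS).out,
    Vale.Agent.P027.HR.undec hZ, ?_⟩
  rintro ⟨m, g, hg⟩
  have hZ' := hZ.trans (Vale.Agent.P027.HR.of_dioph hg)
  obtain ⟨m₁, f₁, L₁, h₁⟩ := (Vale.Agent.P027.HR.fin1 hZ').out
  obtain ⟨m₂, f₂, L₂, h₂⟩ := Vale.Agent.P027.HR.undec hZ'
  refine ⟨⟨m₁, f₁, fun a => (h₁ a).trans ?_⟩, m₂, f₂, fun hc => h₂ (hc.of_eq fun k => ?_)⟩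
  · exact exists_congr fun y => and_iff_left fun _ _ => trivial
  · exact exists_congr fun y => (and_iff_left fun _ _ => trivial).symm

end Vale.Agent.Results.P027.A_approx
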