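import Vale.Agent.P027.Main

namespace Vale.Agent.Results.P027.B_heighteq

theorem result (r : ℕ → ℕ → Prop) (hrefl : ∀ A, r A A)
    (hanti : ∀ A B, r A B → r B A → A = B) :
    (∃ (m : ℕ) (f : MvPolynomial (Fin 1 ⊕ Fin m) ℤ) (L : List (Fin m × Fin m)),
      ∀ a : Fin 1 → ℚ, (∃ z : ℤ, a 0 = z) ↔
        ∃ y : Fin m → ℚ, MvPolynomial.aeval (Sum.elim a y) f = 0 ∧
          ∀ p ∈ L, r (max (y p.1).num.natAbs (y p.1).den) (max (y p.2).num.natAbs (y p.2).den)) ∧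
    (∀ (n : ℕ) (S : Set (Fin n → ℕ)), (REPred fun s => s ∈ S) →
      ∃ (m : ℕ) (f : MvPolynomial (Fin n ⊕ Fin m) ℤ) (L : List (Fin m × Fin m)),
        ∀ a : Fin n → ℚ, (∃ s ∈ S, a = fun i => (s i : ℚ)) ↔
          ∃ y : Fin m → ℚ, MvPolynomial.aeval (Sum.elim a y) f = 0 ∧
            ∀ p ∈ L, r (max (y p.1).num.natAbs (y p.1).den)
              (max (y p.2).num.natAbs (y p.2).den)) ∧
    (∃ (m : ℕ) (f : MvPolynomial (Fin 1 ⊕ Fin m) ℤ) (L : List (Fin m × Fin m)),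
      ¬ ComputablePred fun k : ℕ =>
        ∃ y : Fin m → ℚ, MvPolynomial.aeval (Sum.elim (fun _ => (k : ℚ)) y) f = 0 ∧
          ∀ p ∈ L, r (max (y p.1).num.natAbs (y p.1).den)
            (max (y p.2).num.natAbs (y p.2).den)) := by
  refine ⟨(Vale.Agent.P027.HD.isInt (Vale.Agent.P027.IsP.proj 0)).out r hrefl hanti,
    fun n S hS => (Vale.Agent.P027.HD.re S hS).out r hrefl hanti, ?_⟩
  obtain ⟨S, hS, hn⟩ := Vale.Agent.P027.re_not_comp
  obtain ⟨m, f, L, h⟩ := (Vale.Agent.P027.HD.re S hS).out r hrefl hanti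
  refine ⟨m, f, L, fun hc => hn (hc.of_eq fun k => ?_)⟩
  refine (h fun _ => (k : ℚ)).symm.trans ⟨?_, fun hk => ⟨_, hk, rfl⟩⟩
  rintro ⟨s, hs, e⟩
  have : s = fun _ => k := by
    funext i
    exact_mod_cast (congrFun e i).symm
  exact this ▸ hs

end Vale.Agent.Results.P027.B_heighteq
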